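import Vale.Agent.P236JB.Tab
import Vale.Agent.P236JW.Gd
import Vale.Agent.P236JF.Alg

/-!
# P236JB / Base : the arrays at the start of the twisted functionals
-/

noncomputable section

namespace Vale.Agent.P236JB

open MvPolynomial Vale.Agent.P236KE Vale.Agent.P236K3 Vale.Agent.P236JY
open Vale.Agent.P236KE.S90 Vale.Agent.P236JW Vale.Agent.P236JF

theorem base_eq (a : P236JW.Bs) (w s : ℕ) : base a w s =
    (dN (D3.get (D4.get a.up w) (s / 8192 / 64)) (s / 8192 % 64) (s / 256 % 32 / 4) >>>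
      (2 * (s / 256 % 32 % 4))) &&& Nat.mul (cm a 7 (a.tt + 1 - s % 256)) 3 := by
  rw [base, force_eq, force_eq, force_eq, base3, force_eq, bZ1, force_eq, force_eq, bZ2, bD, m03]
  change (dN (D3.get (D4.get a.up w) (s >>> 13 >>> 6)) (s >>> 13 &&& 63) ((s >>> 8 &&& 31) >>> 2) >>>
    (2 * (s >>> 8 &&& 31 &&& 3))) &&& Nat.mul (cm a 7 (a.tt + 1 - (s &&& 255))) 3 = _
  rw [show s >>> 13 &&& 63 = s >>> 13 % 2 ^ 6 from and_ones _ 6,
    show s >>> 8 &&& 31 = s >>> 8 % 2 ^ 5 from and_ones _ 5,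
    show s >>> 8 % 2 ^ 5 &&& 3 = s >>> 8 % 2 ^ 5 % 2 ^ 2 from and_ones _ 2,
    show s &&& 255 = s % 2 ^ 8 from and_ones _ 8]
  simp only [Nat.shiftRight_eq_div_pow (n := 13), Nat.shiftRight_eq_div_pow (n := 8),
    Nat.shiftRight_eq_div_pow (n := 6), Nat.shiftRight_eq_div_pow (n := 2), Nat.reducePow]

variable [Fact (Nat.Prime 3)] {q : ℕ} {c : CG} {a : P236JW.Bs}

theorem gd_base (h : TabW q c a.dc a.up) (hn : 0 < a.n) (w : sph.G (q + 1)) (s : ℕ) :
    Gd a (base a w s) := by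
  rw [base_eq]
  refine ⟨lanes hn fun r i hi => ?_, fun r i hi ho => ?_⟩ <;>
    rw [dg_land, dg_cmul 7 _ (by decide) r hi]
  · split_ifs
    · exact h.le w _ _ _ _ _ (Nat.mod_lt _ (by decide))
    · exact (Nat.and_zero _).trans_le (Nat.zero_le _)
  · rw [if_neg fun h1 => ho h1.2, Nat.and_zero]

/-- **The start of the twisted functionals.** -/
theorem base_rep (h : TabW q c a.dc a.up) (hn : a.n = c.n) (ht : a.tt = 90) (w : sph.G (q + 1))
    {i : ℕ} (hi : i < c.n) (b : sph.G (q + 2)) (hb : b.1 = byte c.tb i) :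
    RepW a.n a.tt (c.col a.dc i) (· = 0) 0 (byte (sph.d q) w) (base a w) 0
      fun V E _ => TJ (rJ.y q w b) 0 V E := by
  rintro E _ g e W rfl hW e0
  refine ⟨(gd_base h (by omega) w _).bd, ?_⟩
  have h0 : wt4 (0 : Q4) = 0 := rfl
  obtain ⟨h1, h2, h3, h4, h5, h6⟩ :=
    loW_dec (j := byte (sph.d q) w) (E := E) (g := g) (e := e) (by omega)
  have h7 := h.val w E g e W (ht ▸ hW) (by omega) i hi b hb
  change ((P236JW.dg (base a w (loW (byte (sph.d q) w) E g e)) (a.n * (a.tt - W) + i) : ℕ) :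
    ZMod 3) = _
  rw [base_eq, h1, h2, show loW (byte (sph.d q) w) E g e / 8192 / 64 = g + 16 * e by omega,
    show loW (byte (sph.d q) w) E g e / 8192 % 64 = E.2.2.1 + 16 * E.2.2.2 by omega, dg_land,
    dg_cmul 7 _ (by decide) _ (hn ▸ hi)]
  simp only [TJ_zero]
  split_ifs with h8
  · rw [← h7, hn, ht]
  · rw [Nat.and_zero]
    refine (Nat.cast_zero (R := ZMod 3)).trans (if_neg fun h9 => h8 ⟨?_, ?_⟩).symm
    · rw [mW]
      rw [wt4] at e0
      omega
    · rw [on_seven]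
      change byte a.dc i ≤ W ∧ (W - byte a.dc i) % 4 ≠ 3 ∧ _ at h9
      omega

end Vale.Agent.P236JB

end
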