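import Vale.Agent.P236JB.Net
import Vale.Agent.P236JI.Rw
import Vale.Agent.P236JW.Eng2

/-!
# P236JB / Ck : comparison of a table of bits with arrays of bytes
-/

noncomputable section

namespace Vale.Agent.P236JB

open Vale.Agent.P236KE Vale.Agent.P236K3 Vale.Agent.P236JK Vale.Agent.P236JK.Ini
open Vale.Agent.P236JY Vale.Agent.P236JW Vale.Agent.P236JL

/-- the columns: number, generator, two exponents, the layout of the bits, first place, steps -/
structure CB : Type where
  n : Nat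
  fb : Nat → Nat
  fc : Nat → Nat
  fd : Nat → Nat
  T : Nat
  du : Nat
  N : Nat
  p0 : Nat
  l : DL

section
variable (p : CB)

/-- the place in a row of bits -/
def pq (i : Nat) : Nat :=
  Nat.add (po p.T p.du (p.fb i)) (Nat.add (Nat.mul (nat_lit 3) (p.fc i)) (p.fd i))
def pp (i : Nat) : Nat := Nat.sub (pq p i) p.p0
/-- the degree of a column -/
def dD (i : Nat) : Nat := Nat.add (Nat.add (byte p.du (p.fb i)) (Nat.mul (nat_lit 13) (p.fc i)))
  (Nat.mul (nat_lit 40) (p.fd i))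
def sS : Nat := Nat.mul (nat_lit 8) p.n
def su1 (t : P236JY.T1) (i ih : Nat) : Nat :=
  ite' (t.t i) (Nat.lor ih (Nat.shiftLeft (nat_lit 1) (pp p i))) ih
/-- the places of the columns with a property -/
def sup (t : P236JY.T1) : Nat := loop (su1 p t) p.n (nat_lit 0)
def tG (g e i : Nat) : Bool := and (Nat.ble g (p.fc i)) (Nat.ble e (p.fd i))
def tW1 (W D : Nat) : Bool :=
  and (Nat.ble D W) (Nat.ble (Nat.mod (Nat.sub W D) (nat_lit 4)) (nat_lit 2))
def tW (W i : Nat) : Bool := force (dD p i) (tW1 W)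
def spG (g e : Nat) : Nat := sup p ⟨tG p g e⟩
def spW (W : Nat) : Nat := sup p ⟨tW p W⟩
def sp (g e W : Nat) : Nat := Nat.land (spG p g e) (spW p W)
def cc1 (i : Nat) : Bool :=
  and (and (Nat.ble p.p0 (pq p i)) (Nat.blt (pp p i) (sS p)))
    (Nat.beq (force (pp p i) (trk p.l)) (Nat.mul (nat_lit 8) i))
/-- the steps bring the columns to their places -/
def okC : Bool := and (okN (sS p) p.l (sup p ⟨fun _ => true⟩)) (alt ⟨cc1 p⟩ p.n)

def rw1 (x sh o g e W : Nat) : Nat :=
  Nat.land (Nat.shiftRight (Nat.shiftLeft x sh) o) (sp p g e W)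
def rwA (D : DLL) (m sh o g e u k : Nat) : Nat := force (Nat.add u k) (rw1 p (dN D m k) sh o g e)
def rwB (D : DLL) (m sh o g e u k : Nat) : Nat := force (Nat.add u k) (rw1 p (dO D m k) sh o g e)
def rep : Nat := repN (sS p) (Nat.succ p.T)
def r8 : Nat := repN (nat_lit 8) (Nat.mul p.n (Nat.succ p.T))
def pl1 (Z j : Nat) (f : Nat → Nat) (k r S R : Nat) : Bool :=
  Nat.beq (Nat.land (Nat.shiftRight Z j) (r8 p)) (net R p.l (asm f S k r))
def ar2 (D : DLL) (m sh g e u Z S R j o k r : Nat) : Bool :=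
  and (pl1 p Z j (rwA p D m sh o g e u) k r S R) (pl1 p Z (Nat.succ j) (rwB p D m sh o g e u) k r S R)
def ar1 (D : DLL) (m sh g e u Z S R j e2 : Nat) : Bool :=
  force (Nat.add (Nat.mul p.N e2) p.p0) fun o => force (Nat.mul (nat_lit 4) e2) fun k =>
    force (Nat.sub (Nat.succ p.T) (Nat.add u k)) (ar2 p D m sh g e u Z S R j o k)
def ar0 (D : DLL) (m sh g e u Z S R G i : Nat) : Bool :=
  force (Nat.mul (nat_lit 2) i) fun j =>
    force (Nat.add (Nat.mul (nat_lit 4) G) i) (ar1 p D m sh g e u Z S R j)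
/-- no pair of bits holds the number three -/
def n3 (Z : Nat) : Bool :=
  and (Nat.beq (Nat.shiftRight Z (Nat.mul (sS p) (Nat.succ p.T))) (nat_lit 0))
    (Nat.beq (Nat.land (Nat.land Z (Nat.shiftRight Z (nat_lit 1))) (Nat.mul (nat_lit 85) (r8 p)))
      (nat_lit 0))
def z1 (D : DLL) (m g e u G Z sh S R : Nat) : Bool :=
  and (n3 p Z) (alt ⟨ar0 p D m sh g e u Z S R G⟩ (nat_lit 4))
/-- the check of one number which holds four arrays -/
def ckZ (D : DLL) (m g e u G Z : Nat) : Bool :=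
  force (Nat.add (Nat.mul (nat_lit 3) g) e) fun sh => force (sS p) fun S =>
    z1 p D m g e u G Z sh S (rep p)

/-- the column number `i` -/
def col (i : ℕ) : Col := ⟨i, p.fc i, p.fd i, dD p i⟩

end

variable {p : CB}

theorem bit_sup (t : P236JY.T1) (j : ℕ) :
    (sup p t).testBit j = true ↔ ∃ i < p.n, t.t i = true ∧ pp p i = j := by
  rw [sup]
  induction p.n with
  | zero => simp [loop]
  | succ n ih =>
    change (su1 p t n (loop (su1 p t) n 0)).testBit j = true ↔ _
    rw [Nat.exists_lt_succ_right, ← ih, su1]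
    rcases t.t n with _ | _
    · simp [ite']
    · change (_ ||| 1 <<< _).testBit j = true ↔ _
      simp [Nat.one_shiftLeft, Nat.testBit_two_pow]

theorem okC_col (h : okC p = true) {i : ℕ} (hi : i < p.n) :
    p.p0 + pp p i = pq p i ∧ pp p i < sS p ∧ trk p.l (pp p i) = 8 * i := by
  rw [okC, Bool.and_eq_true] at h
  have h1 : cc1 p i = true := alt_spec (t := ⟨cc1 p⟩) h.2 hi
  rw [cc1, Bool.and_eq_true, Bool.and_eq_true, Nat.ble_eq, Nat.blt_eq, Nat.beq_eq] at h1
  exact ⟨Nat.add_sub_cancel' h1.1.1, h1.1.2, h1.2⟩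

theorem bit_sup_col (h : okC p = true) (t : P236JY.T1) {i : ℕ} (hi : i < p.n) :
    (sup p t).testBit (pp p i) = t.t i := by
  rw [Bool.eq_iff_iff, bit_sup]
  refine ⟨fun ⟨j, hj, h1, h2⟩ => ?_, fun h1 => ⟨i, hi, h1, rfl⟩⟩
  have h3 := (okC_col h hj).2.2
  rw [h2, (okC_col h hi).2.2] at h3
  rwa [show i = j by omega]

theorem bit_rw1 (x sh o g e W t : ℕ) : (rw1 p x sh o g e W).testBit t =
    (decide (sh ≤ o + t) && x.testBit (o + t - sh) &&
      ((spG p g e).testBit t && (spW p W).testBit t)) := by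
  change ((x <<< sh) >>> o &&& (spG p g e &&& spW p W)).testBit t = _
  rw [Nat.testBit_and, Nat.testBit_and, Nat.testBit_shiftRight, Nat.testBit_shiftLeft]

theorem rw1_sup {x sh o g e W t : ℕ} (h : (rw1 p x sh o g e W).testBit t = true) :
    ∃ i < p.n, pp p i = t := by
  simp only [bit_rw1, Bool.and_eq_true] at h
  obtain ⟨i, h1, -, h2⟩ := (bit_sup _ _).1 h.2.2
  exact ⟨i, h1, h2⟩

theorem pl1_spec (h : okC p = true) {Z j k r sh o g e u : ℕ} {x : ℕ → ℕ} (hr : r ≤ p.T + 1)
    (hc : pl1 p Z j (fun k => rw1 p (x k) sh o g e (u + k)) k r (sS p) (rep p) = true) {i ρ : ℕ}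
    (hi : i < p.n) (hρ : ρ < r) : Z.testBit (j + 8 * (p.n * ρ + i)) =
      (rw1 p (x (k + (r - 1 - ρ))) sh o g e (u + (k + (r - 1 - ρ)))).testBit (pp p i) := by
  obtain ⟨-, h1, h2⟩ := okC_col h hi
  have h3 := asm_bit (f := fun k => rw1 p (x k) sh o g e (u + k)) (S := sS p) (fun k t ht => by
    obtain ⟨i, h3, rfl⟩ := rw1_sup ht
    exact (okC_col h h3).2.1) k r
  rw [okC, Bool.and_eq_true] at h
  have h4 := net_bit (R := p.T + 1) h.1 (fun ρ t ht h4 => by
    rw [h3 ρ t ht, Bool.and_eq_true, decide_eq_true_eq] at h4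
    obtain ⟨i, h5, rfl⟩ := rw1_sup h4.2
    exact ⟨by omega, (bit_sup _ _).2 ⟨i, h5, rfl, rfl⟩⟩) h1 ((bit_sup _ _).2 ⟨i, hi, rfl, rfl⟩) ρ
  rw [pl1, Nat.beq_eq] at hc
  change Z >>> j &&& repN 8 (p.n * (p.T + 1)) = net (repN (sS p) (p.T + 1)) _ _ at hc
  have h5 : sS p * ρ + 8 * i = 8 * (p.n * ρ + i) := by
    change 8 * p.n * ρ + _ = _
    ring
  rw [← hc, h2, h5, Nat.testBit_and, Nat.testBit_shiftRight, (bit_repN (by decide) _ _).2
    ⟨_, by nlinarith, rfl⟩, Bool.and_true, h3 ρ _ h1, decide_eq_true hρ] at h4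
  exact h4

theorem dg_three (x j : ℕ) :
    dg x j &&& 3 = (x.testBit (8 * j)).toNat + 2 * (x.testBit (8 * j + 1)).toNat := by
  rw [show dg x j &&& 3 = dg x j % 2 ^ 2 from and_ones _ 2, Nat.toNat_testBit, Nat.toNat_testBit,
    dg, pow_succ 2 (8 * j), ← Nat.div_div_eq_div_mul]
  omega

theorem n3_bit {Z : ℕ} (h : n3 p Z = true) {a : ℕ} (ha : a < 4) :
    ∀ j, ¬ (Z.testBit (2 * a + 8 * j) = true ∧ Z.testBit (2 * a + (8 * j + 1)) = true) := by
  rw [n3, Bool.and_eq_true, Nat.beq_eq, Nat.beq_eq] at h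
  obtain ⟨h1, h2⟩ := h
  rintro j ⟨h4, h5⟩
  rcases Nat.lt_or_ge j (p.n * (p.T + 1)) with h6 | h6
  · have h7 : (85 * repN 8 (p.n * (p.T + 1))).testBit (2 * a + 8 * j) = true :=
      (bit_mul_repN (by decide) (fun i hi => by
        by_contra h8
        rw [Nat.testBit_lt_two_pow ((by decide : 85 < 2 ^ 8).trans_le
          (Nat.pow_le_pow_right (by decide) (by omega)))] at hi
        cases hi) _ _).2 ⟨j, h6, 2 * a, by interval_cases a <;> rfl, by omega⟩
    have h8 := congrArg (Nat.testBit · (2 * a + 8 * j)) h2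
    change (Z &&& Z >>> 1 &&& 85 * repN 8 (p.n * (p.T + 1))).testBit _ = Nat.testBit 0 _ at h8
    rw [Nat.testBit_and, Nat.testBit_and, Nat.testBit_shiftRight, h4, h7,
      show 1 + (2 * a + 8 * j) = 2 * a + (8 * j + 1) by omega, h5, Nat.zero_testBit] at h8
    cases h8
  · have h8 := congrArg (Nat.testBit · (2 * a + 8 * j - 8 * (p.n * (p.T + 1)))) h1
    change (Z >>> (8 * p.n * (p.T + 1))).testBit _ = Nat.testBit 0 _ at h8
    rw [Nat.testBit_shiftRight, mul_assoc, Nat.add_sub_cancel' (by omega), h4,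
      Nat.zero_testBit] at h8
    cases h8

theorem n3_le {Z : ℕ} (h : n3 p Z = true) {a : ℕ} (ha : a < 4) (j : ℕ) :
    dg (Z >>> (2 * a)) j &&& 3 ≤ 2 := by
  have := n3_bit h ha j
  rw [dg_three, Nat.testBit_shiftRight, Nat.testBit_shiftRight]
  revert this
  cases Z.testBit (2 * a + 8 * j) <;> cases Z.testBit (2 * a + (8 * j + 1)) <;> simp

/-- **The meaning of the check.** -/
theorem ckZ_spec (h : okC p = true) {D : DLL} {m g e u G Z : ℕ} (hc : ckZ p D m g e u G Z = true)
    {a : ℕ} (ha : a < 4) : (∀ j, dg (Z >>> (2 * a)) j &&& 3 ≤ 2) ∧ ∀ i < p.n, ∀ e1 W, W ≤ p.T →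
      W = u + (4 * (4 * G + a) + e1) → dg (Z >>> (2 * a)) (p.n * (p.T - W) + i) &&& 3 =
        if dD p i ≤ W ∧ (W - dD p i) % 4 ≠ 3 ∧ g ≤ p.fc i ∧ e ≤ p.fd i then
          tr ⟨dN D m (4 * (4 * G + a) + e1), dO D m (4 * (4 * G + a) + e1)⟩ (p.N * (4 * G + a) +
            (po p.T p.du (p.fb i) + (3 * (p.fc i - g) + (p.fd i - e)))) else 0 := by
  rw [ckZ, force_eq, force_eq, z1, Bool.and_eq_true] at hc
  obtain ⟨h1, h3⟩ := hc
  have h4 := n3_bit h1 ha
  refine ⟨n3_le h1 ha, fun i hi e1 W hW e0 => ?_⟩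
  · have h5 : ar2 p D m (3 * g + e) g e u Z (sS p) (rep p) (2 * a) (p.N * (4 * G + a) + p.p0)
        (4 * (4 * G + a)) (p.T + 1 - (u + 4 * (4 * G + a))) = true :=
      alt_spec (t := ⟨ar0 p D m _ g e u Z _ _ G⟩) h3 ha
    rw [ar2, Bool.and_eq_true] at h5
    have hρ : p.T - W < p.T + 1 - (u + 4 * (4 * G + a)) := by omega
    have h6 := pl1_spec (x := dN D m) h (Nat.sub_le _ _) h5.1 hi hρ
    have h7 := pl1_spec (x := dO D m) h (Nat.sub_le _ _) h5.2 hi hρ
    have h8 := h4 (p.n * (p.T - W) + i)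
    have h9 : p.p0 + pp p i = po p.T p.du (p.fb i) + (3 * p.fc i + p.fd i) := (okC_col h hi).1
    rw [show p.T + 1 - (u + 4 * (4 * G + a)) - 1 - (p.T - W) = e1 by omega, ← e0, bit_rw1, spG, spW,
      bit_sup_col h _ hi, bit_sup_col h _ hi] at h6 h7
    rw [show (2 * a).succ + 8 * (p.n * (p.T - W) + i) = 2 * a + (8 * (p.n * (p.T - W) + i) + 1) by
      omega] at h7
    rw [dg_three, Nat.testBit_shiftRight, Nat.testBit_shiftRight]
    have h10 : (tG p g e i && tW p W i) =
        decide (dD p i ≤ W ∧ (W - dD p i) % 4 ≠ 3 ∧ g ≤ p.fc i ∧ e ≤ p.fd i) := by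
      change (Nat.ble g _ && Nat.ble e _ && (Nat.ble (dD p i) W && Nat.ble ((W - dD p i) % 4) 2)) = _
      rw [Bool.eq_iff_iff]
      simp only [Bool.and_eq_true, Nat.ble_eq, decide_eq_true_eq]
      omega
    simp only [h10] at h6 h7
    split_ifs with h11
    · rw [decide_eq_true h11, decide_eq_true (by omega), Bool.true_and, Bool.and_true,
        show p.N * (4 * G + a) + p.p0 + pp p i - (3 * g + e) = p.N * (4 * G + a) +
          (po p.T p.du (p.fb i) + (3 * (p.fc i - g) + (p.fd i - e))) by omega] at h6 h7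
      rw [h6, h7] at h8 ⊢
      simp only [tr]
      revert h8
      cases (dN D m _).testBit _ <;> cases (dO D m _).testBit _ <;> simp
    · rw [decide_eq_false h11, Bool.and_false] at h6 h7
      rw [h6, h7]
      rfl

/-- the test holds for the first numbers of all pairs -/
def a1 (t : P236JY.T1) (l : DL) : Bool :=
  DL.rec (motive := fun _ => Bool) true (fun x _ _ ih => and (t.t x) ih) l
def a2 (t : P236JY.T1) (l : DLL) : Bool :=
  DLL.rec (motive := fun _ => Bool) true (fun x _ ih => and (a1 t x) ih) l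
def a3 (t : P236JY.T1) (l : D3) : Bool :=
  D3.rec (motive := fun _ => Bool) true (fun x _ ih => and (a2 t x) ih) l

theorem a3_spec {t : P236JY.T1} (h0 : t.t 0 = true) {l : D3} (h : a3 t l = true) (k m j : ℕ) :
    t.t (dN (D3.get l k) m j) = true := by
  have h1 : a3 t (D3.drop l k) = true := by
    induction k with
    | zero => exact h
    | succ k ih =>
      change a3 t (D3.tail (D3.drop l k)) = true
      revert ih
      cases D3.drop l k
      exacts [id, fun h => (Bool.and_eq_true_iff.1 h).2]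
  have h2 : a2 t (D3.get l k) = true := by
    rw [D3.get]
    revert h1
    cases D3.drop l k
    exacts [id, fun h => (Bool.and_eq_true_iff.1 h).1]
  generalize D3.get l k = L at h2
  have h3 : a2 t (DLL.drop L m) = true := by
    induction m with
    | zero => exact h2
    | succ m ih =>
      change a2 t (DLL.tail (DLL.drop L m)) = true
      revert ih
      cases DLL.drop L m
      exacts [id, fun h => (Bool.and_eq_true_iff.1 h).2]
  have h4 : a1 t (DLL.get L m) = true := by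
    rw [DLL.get]
    revert h3
    cases DLL.drop L m
    exacts [id, fun h => (Bool.and_eq_true_iff.1 h).1]
  rw [dN]
  generalize DLL.get L m = M at h4
  have h5 : a1 t (DL.drop M j) = true := by
    induction j with
    | zero => exact h4
    | succ j ih =>
      change a1 t (DL.tail (DL.drop M j)) = true
      revert ih
      cases DL.drop M j
      exacts [id, fun h => (Bool.and_eq_true_iff.1 h).2]
  revert h5
  cases DL.drop M j
  exacts [fun _ => h0, fun h => (Bool.and_eq_true_iff.1 h).1]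

theorem n3_zero : n3 p 0 = true := by
  rw [n3, Bool.and_eq_true, Nat.beq_eq, Nat.beq_eq]
  exact ⟨Nat.zero_shiftRight _, Nat.zero_and _⟩

end Vale.Agent.P236JB

end
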