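import Vale.Agent.P236JI.Lay
import Vale.Agent.P236JW.Fin

/-!
# P236JB / Main : the composite of two matrices vanishes if all runs succeed
-/

noncomputable section

namespace Vale.Agent.P236JB

open MvPolynomial Vale.Agent.P236KE Vale.Agent.P236JF Vale.Agent.P236JW
open Vale.Agent.P236K3 (loop)
open Vale.Agent.P236JK (ones ite')
open Vale.Agent.P236JL (alt alt_spec)
open Vale.Agent.P236JY (rJ)
open Vale.Agent.P236KE.S90 (sph)
open Vale.Agent.P236JK.Ini (SqJ)

/-- the runs which are marked in `M` have been done -/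
def Dn (q : ℕ) (a : P236JW.Bs) (dl n M : ℕ) : Prop := ∀ w < n, ∀ k < 27,
  M.testBit (32 * w + k) = true → ∃ m, m.testBit k = true ∧ okM a (lw q w (byte dl w)) m = true

variable {q dl n M M' : ℕ} {a : P236JW.Bs} {c : CG}

theorem okQ_spec (h : okQ q a dl n M = true) {w : ℕ} (hw : w < n) : okQ1 q a dl M w = true := by
  induction n with
  | zero => exact absurd hw (Nat.not_lt_zero _)
  | succ n ih =>
    change ite' (okQ q a dl n M) (okQ1 q a dl M n) false = true at h
    rcases h1 : okQ q a dl n M with _ | _ <;> rw [h1] at h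
    · cases h
    · rcases Nat.lt_succ_iff_lt_or_eq.1 hw with h2 | rfl
      exacts [ih h1 h2, h]

theorem dn (h : okQ q a dl n M = true) : Dn q a dl n M := fun w hw k hk hb => by
  have h1 := okQ_spec h hw
  rw [okQ1, force_eq, okQ2] at h1
  have h2 : (Nat.land (Nat.shiftRight M (Nat.mul (nat_lit 32) w)) (nat_lit 134217727)).testBit k =
      true := by
    change (M >>> (32 * w) &&& (2 ^ 27 - 1)).testBit k = true
    rw [Nat.testBit_and, Nat.testBit_shiftRight, hb, Nat.testBit_two_pow_sub_one, decide_eq_true hk]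
    rfl
  generalize Nat.land (Nat.shiftRight M (Nat.mul (nat_lit 32) w)) (nat_lit 134217727) = m at h1 h2
  refine ⟨m, h2, ?_⟩
  rcases h3 : Nat.beq m (nat_lit 0) with _ | _
  · rwa [h3, ite', force_eq, okQ3] at h1
  · rw [Nat.beq_eq] at h3
    rw [h3] at h2
    cases (Nat.zero_testBit k).symm.trans h2

theorem Dn.or (h : Dn q a dl n M) (h' : Dn q a dl n M') : Dn q a dl n (Nat.lor M M') :=
  fun w hw k hk hb => by
    change (M ||| M').testBit _ = true at hb
    rw [Nat.testBit_or, Bool.or_eq_true] at hb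
    exact hb.elim (h w hw k hk) (h' w hw k hk)

def bt (M i : Nat) : Bool := Nat.beq (Nat.land (Nat.shiftRight M i) (nat_lit 1)) (nat_lit 1)

theorem bt_eq {M i : ℕ} (h : bt M i = true) : M.testBit i = true := by
  rw [bt, Nat.beq_eq] at h
  have h1 := (and_one M i).symm.trans h
  revert h1
  cases M.testBit i <;> simp

def fm2 (M w d k : Nat) : Bool :=
  ite' (Nat.ble (Nat.add (Nat.add d (Nat.mul (nat_lit 13) (Nat.mod k (nat_lit 9))))
    (Nat.mul (nat_lit 40) (Nat.div k (nat_lit 9)))) (nat_lit 90))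
    (bt M (Nat.add (Nat.mul (nat_lit 32) w) k)) true
def fm1 (dl M w : Nat) : Bool := alt ⟨fm2 M w (byte dl w)⟩ (nat_lit 27)
def km1 (c : CG) (i ih : Nat) : Nat :=
  Nat.lor ih (Nat.shiftLeft (nat_lit 1) (Nat.add (Nat.mul (nat_lit 256) (byte c.tb i))
    (Nat.add (Nat.mul (nat_lit 8) (byte c.tc i)) (byte c.td i))))
/-- the keys of the columns -/
def kM (c : CG) : Nat := loop (km1 c) c.n (nat_lit 0)
def cv2 (c : CG) (b d k : Nat) : Bool :=
  ite' (Nat.ble (Nat.add (Nat.add d (Nat.mul (nat_lit 13) (Nat.div k (nat_lit 3))))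
    (Nat.mul (nat_lit 40) (Nat.mod k (nat_lit 3)))) (nat_lit 90))
    (bt (kM c) (Nat.add (Nat.mul (nat_lit 256) b)
      (Nat.add (Nat.mul (nat_lit 8) (Nat.div k (nat_lit 3))) (Nat.mod k (nat_lit 3))))) true
def cv1 (c : CG) (du b : Nat) : Bool := alt ⟨cv2 c b (byte du b)⟩ (nat_lit 21)
/-- side conditions, all columns occur, all runs are marked -/
def okA (q : Nat) (c : CG) (a : P236JW.Bs) (dl n M : Nat) : Bool :=
  sdG q c a && Nat.beq dl (sph.d q) && Nat.beq n (sph.n q) && alt ⟨fm1 dl M⟩ n &&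
    alt ⟨cv1 c (sph.d (q + 2))⟩ (sph.n (q + 2))

theorem bit_kM {j : ℕ} (h : (kM c).testBit j = true) :
    ∃ i < c.n, 256 * byte c.tb i + (8 * byte c.tc i + byte c.td i) = j := by
  rw [kM] at h
  generalize c.n = n at h
  induction n with
  | zero => cases (Nat.zero_testBit j).symm.trans h
  | succ n ih =>
    change (loop (km1 c) n 0 ||| 1 <<< (256 * byte c.tb n + (8 * byte c.tc n + byte c.td n))).testBit
      j = true at h
    rw [Nat.testBit_or, Bool.or_eq_true, Nat.one_shiftLeft, Nat.testBit_two_pow,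
      decide_eq_true_eq] at h
    rcases h with h | h
    · obtain ⟨i, h1, h2⟩ := ih h
      exact ⟨i, by omega, h2⟩
    · exact ⟨n, by omega, h⟩

theorem ite_ble {x y : ℕ} {t : Bool} (h : ite' (Nat.ble x y) t true = true) (h' : x ≤ y) :
    t = true := by
  rwa [Nat.ble_eq_true_of_le h'] at h

variable [Fact (Nat.Prime 3)]

/-- **The composite vanishes.** -/
theorem sq_of (hT : TabW (q + 1) c a.dc a.up) (h : Dn q a dl n M) (hc : okA q c a dl n M = true) :
    SqJ q := by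
  simp only [okA, Bool.and_eq_true, Nat.beq_eq] at hc
  obtain ⟨⟨⟨⟨h1, rfl⟩, rfl⟩, h4⟩, h5⟩ := hc
  obtain ⟨e1, e2, -, e4, -, e6⟩ := sdG_spec h1
  intro w b E V hV k1 k2
  change _ + byte (sph.d q) w ≤ _ at k1
  change _ + byte (sph.d (q + 2)) b = _ + byte (sph.d q) w at k2
  have k3 := k1
  have k4 := k2
  rw [wt4] at k3
  rw [wt4, wt4] at k4
  have h6 : fm1 (sph.d q) M w = true := alt_spec (t := ⟨fm1 _ M⟩) h4 w.2
  have h7 : fm2 M w (byte (sph.d q) w) (9 * E.2.2.2 + E.2.2.1) = true :=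
    alt_spec (t := ⟨fm2 M w _⟩) h6 (show _ < 27 by omega)
  rw [fm2] at h7
  replace h7 := ite_ble h7 (show byte (sph.d q) w + 13 * ((9 * E.2.2.2 + E.2.2.1) % 9) +
    40 * ((9 * E.2.2.2 + E.2.2.1) / 9) ≤ 90 by omega)
  obtain ⟨m, h8, h9⟩ := h w w.2 _ (by omega) (bt_eq h7)
  have g6 : cv1 c (sph.d (q + 2)) b = true := alt_spec (t := ⟨cv1 c _⟩) h5 b.2
  have g7 : cv2 c b (byte (sph.d (q + 2)) b) (3 * V.2.2.1 + V.2.2.2) = true :=
    alt_spec (t := ⟨cv2 c b _⟩) g6 (show _ < 21 by omega)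
  rw [cv2] at g7
  replace g7 := ite_ble g7 (show byte (sph.d (q + 2)) b + 13 * ((3 * V.2.2.1 + V.2.2.2) / 3) +
    40 * ((3 * V.2.2.1 + V.2.2.2) % 3) ≤ 90 by omega)
  obtain ⟨i, hi, g8⟩ := bit_kM (bt_eq g7)
  change _ = 256 * b.1 + (8 * ((3 * V.2.2.1 + V.2.2.2) / 3) + (3 * V.2.2.1 + V.2.2.2) % 3) at g8
  have g9 := (cG_col e6 hi).2
  have g10 : byte a.dc i < 256 := byte_eq a.dc i ▸ dg_lt _ _
  have g11 : b.1 = byte c.tb i := by omega
  rw [← g11] at g9
  change _ = byte (sph.d (q + 2)) b + _ + _ at g9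
  have g12 : V.2.2.2 < 3 := by omega
  rw [show (3 * V.2.2.1 + V.2.2.2) / 3 = V.2.2.1 by omega,
    show (3 * V.2.2.1 + V.2.2.2) % 3 = V.2.2.2 by omega, ← g11] at g8
  have g13 : byte c.td i < 8 := by omega
  have g14 : byte c.tc i = V.2.2.1 := by omega
  have g15 : byte c.td i = V.2.2.2 := by omega
  rw [g14, g15] at g9
  obtain ⟨hz, hF⟩ := init_fam h1 hT w hi b g11
  exact of_okM (S := fun _ => True) (z := c.col a.dc i) h9 h8 e4 e2.le
    (fun g1 g2 g3 g4 V e f hV => P236JK.valJ_t1 g1 g2 g3 g4 hV _ _) (fun _ => trivial) hz.i hz.D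
    (fun g4 c1 c0 b2 b1 b0 => (x2_fam hz hF g4 c1 c0 b2 b1 b0).rep) hV
    g14 g15
    (show byte a.dc i + _ + _ ≤ _ by omega)
    (show wt4 E + byte (sph.d q) w = byte a.dc i + _ + _ by rw [wt4]; omega)

end Vale.Agent.P236JB

end
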