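import Vale.Agent.P236JI.Bit
import Vale.Agent.P236JL.Tr
import Vale.Agent.P236JW.Lane

/-!
# P236JB / Net : moving the bits of all rows by a list of masks and shifts
-/

noncomputable section

namespace Vale.Agent.P236JB

open Vale.Agent.P236KE Vale.Agent.P236K3 Vale.Agent.P236JK Vale.Agent.P236JK.Ini

def st2 (x s y : Nat) : Nat := Nat.lor (Nat.xor x y) (Nat.shiftLeft y s)
/-- the bits under the mask are moved up -/
def st1 (x M s : Nat) : Nat := st2 x s (Nat.land x M)
def nt1 (rep m s : Nat) (_ : DL) (ih : Nat → Nat) (x : Nat) : Nat :=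
  ih (st1 x (Nat.mul m rep) s)
/-- all steps, the masks are repeated in every row -/
def net (rep : Nat) (l : DL) : Nat → Nat :=
  DL.rec (motive := fun _ => Nat → Nat) (fun x => x) (nt1 rep) l

def ok1 (S m s : Nat) (_ : DL) (ih : Nat → Bool) (u : Nat) : Bool :=
  and (and (Nat.beq (Nat.shiftRight (Nat.shiftLeft m s) S) (nat_lit 0))
    (Nat.beq (Nat.land (Nat.xor u (Nat.land u m)) (Nat.shiftLeft (Nat.land u m) s)) (nat_lit 0)))
    (ih (st1 u m s))
/-- no two bits of the support meet, no bit leaves its row -/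
def okN (S : Nat) (l : DL) : Nat → Bool :=
  DL.rec (motive := fun _ => Nat → Bool) (fun _ => true) (ok1 S) l

def tk1 (m s : Nat) (_ : DL) (ih : Nat → Nat) (t : Nat) : Nat :=
  force (Nat.add t (Nat.mul s (Nat.land (Nat.shiftRight m t) (nat_lit 1)))) ih
/-- the final place of a bit -/
def trk (l : DL) : Nat → Nat := DL.rec (motive := fun _ => Nat → Nat) (fun t => t) tk1 l

theorem bit_st1 (x M s t : ℕ) : (st1 x M s).testBit t = (x.testBit t && !M.testBit t ||
    decide (s ≤ t) && (x.testBit (t - s) && M.testBit (t - s))) := by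
  change ((x ^^^ (x &&& M)) ||| (x &&& M) <<< s).testBit t = _
  rw [Nat.testBit_or, Nat.testBit_xor, Nat.testBit_shiftLeft, Nat.testBit_and, Nat.testBit_and]
  cases x.testBit t <;> cases M.testBit t <;> rfl

theorem bit_per {S m : ℕ} (hm : ∀ i, m.testBit i = true → i < S) {R ρ t : ℕ} (hρ : ρ < R)
    (ht : t < S) : (m * repN S R).testBit (S * ρ + t) = m.testBit t := by
  rw [Bool.eq_iff_iff, bit_mul_repN (by omega) hm]
  constructor
  · rintro ⟨k, -, r, h1, h2⟩
    rwa [(mix ht (hm r h1) h2).2]
  · exact fun h => ⟨ρ, hρ, t, h, rfl⟩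

/-- the bits of `x` lie in the first `R` rows and in the support -/
def In (S R u x : ℕ) : Prop :=
  ∀ ρ t, t < S → x.testBit (S * ρ + t) = true → ρ < R ∧ u.testBit t = true

theorem and_one (m t : ℕ) : (m >>> t) &&& 1 = (m.testBit t).toNat := by
  rw [Nat.and_one_is_mod, Nat.shiftRight_eq_div_pow, Nat.toNat_testBit]

theorem bit_row {S R u x m s : ℕ} (h1 : ∀ i, m.testBit i = true → i + s < S) (h : In S R u x)
    (ρ : ℕ) {t : ℕ} (ht : t < S) : (st1 x (m * repN S R) s).testBit (S * ρ + t) =
      (x.testBit (S * ρ + t) && !m.testBit t ||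
        decide (s ≤ t) && (x.testBit (S * ρ + (t - s)) && m.testBit (t - s))) := by
  have hm : ∀ i, m.testBit i = true → i < S := fun i hi => by have := h1 i hi; omega
  have h2 : ∀ ρ t, t < S → (x.testBit (S * ρ + t) && (m * repN S R).testBit (S * ρ + t)) =
      (x.testBit (S * ρ + t) && m.testBit t) := fun ρ t ht => by
    rcases h3 : x.testBit (S * ρ + t) with _ | _
    · rfl
    · rw [bit_per hm (h ρ t ht h3).1 ht]
  rw [bit_st1]
  congr 1
  · have := h2 ρ t ht
    revert this
    cases x.testBit (S * ρ + t) <;> cases m.testBit t <;>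
      cases (m * repN S R).testBit (S * ρ + t) <;> simp
  · rcases Nat.lt_or_ge t s with h3 | h3
    · rw [decide_eq_false (Nat.not_le.2 h3), Bool.false_and, Bool.and_eq_false_iff,
        decide_eq_false_iff_not, ← imp_iff_not_or]
      intro h4
      have hS : 0 < S := by omega
      have h5 := Nat.div_add_mod (S * ρ + t - s) S
      have h6 := Nat.mod_lt (S * ρ + t - s) hS
      rw [← h5, h2 _ _ h6, Bool.and_eq_false_iff, ← Bool.not_eq_true (m.testBit _), or_comm,
        ← imp_iff_not_or]
      intro h7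
      have h8 := h1 _ h7
      have := mix (x := (S * ρ + t - s) / S) (y := ρ) h8 ht (by omega)
      omega
    · rw [decide_eq_true h3, decide_eq_true (by omega), Nat.add_sub_assoc h3, h2 _ _ (by omega)]

theorem net_bit {S R : ℕ} : ∀ {l : DL} {u x t : ℕ}, okN S l u = true → In S R u x → t < S →
    u.testBit t = true → ∀ ρ, (net (repN S R) l x).testBit (S * ρ + trk l t) = x.testBit (S * ρ + t)
  | .nil, _, _, _, _, _, _, _, _ => rfl
  | .cons m s l, u, x, t, h, hx, ht, hu, ρ => by
    change (Nat.beq ((m <<< s) >>> S) 0 && Nat.beq ((u ^^^ (u &&& m)) &&& ((u &&& m) <<< s)) 0 &&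
      okN S l (st1 u m s)) = true at h
    rw [Bool.and_eq_true, Bool.and_eq_true, Nat.beq_eq, Nat.beq_eq] at h
    obtain ⟨⟨h1, h2⟩, h3⟩ := h
    have h4 : ∀ i, m.testBit i = true → i + s < S := fun i hi => by
      by_contra h5
      have h6 : ((m <<< s) >>> S).testBit (i + s - S) = true := by
        rw [Nat.testBit_shiftRight, Nat.testBit_shiftLeft, show S + (i + s - S) - s = i by omega,
          hi, decide_eq_true (by omega)]
        rfl
      rw [h1, Nat.zero_testBit] at h6
      cases h6
    have h5 : ∀ i, u.testBit (i + s) = true → u.testBit i = true → m.testBit i = true →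
        m.testBit (i + s) = true := fun i e1 e2 e3 => by
      have h6 := congrArg (Nat.testBit · (i + s)) h2
      simpa [Nat.testBit_shiftLeft, e1, e2, e3] using h6
    have h6 : In S R (st1 u m s) (st1 x (m * repN S R) s) := fun ρ t ht h7 => by
      rw [bit_row h4 hx ρ ht] at h7
      rw [bit_st1]
      simp only [Bool.or_eq_true, Bool.and_eq_true] at h7 ⊢
      rcases h7 with ⟨h7, h8⟩ | ⟨h7, h8, h9⟩
      · exact ⟨(hx ρ t ht h7).1, Or.inl ⟨(hx ρ t ht h7).2, h8⟩⟩
      · exact ⟨(hx ρ _ (by omega) h8).1, Or.inr ⟨h7, (hx ρ _ (by omega) h8).2, h9⟩⟩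
    change (net (repN S R) l (st1 x (m * repN S R) s)).testBit
      (S * ρ + trk l (t + s * ((m >>> t) &&& 1))) = _
    rw [and_one]
    rcases h7 : m.testBit t with _ | _
    · rw [Bool.toNat_false, mul_zero, add_zero, net_bit h3 h6 ht (by rw [bit_st1, hu, h7]; rfl),
        bit_row h4 hx ρ ht, h7, Bool.not_false, Bool.and_true]
      rcases h8 : decide (s ≤ t) && (x.testBit (S * ρ + (t - s)) && m.testBit (t - s)) with _ | _
      · exact Bool.or_false _
      · simp only [Bool.and_eq_true, decide_eq_true_eq] at h8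
        have h9 := h5 (t - s) (by rwa [Nat.sub_add_cancel h8.1]) (hx ρ _ (by omega) h8.2.1).2 h8.2.2
        rw [Nat.sub_add_cancel h8.1, h7] at h9
        cases h9
    · have h8 := h4 t h7
      rw [Bool.toNat_true, mul_one, net_bit h3 h6 h8 (by simp [bit_st1, hu, h7]),
        bit_row h4 hx ρ h8, Nat.add_sub_cancel, h7, decide_eq_true (Nat.le_add_left _ _),
        Bool.true_and, Bool.and_true]
      rcases h9 : x.testBit (S * ρ + (t + s)) with _ | _
      · rfl
      · rw [h5 t (hx ρ _ h8 h9).2 hu h7]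
        rfl

def as1 (f : Nat → Nat) (S k i ih : Nat) : Nat :=
  Nat.lor (Nat.shiftLeft ih S) (force (Nat.add k i) f)
/-- the rows `f k, …, f (k + n - 1)`, the first one on top -/
def asm (f : Nat → Nat) (S k n : Nat) : Nat := loop (as1 f S k) n (nat_lit 0)

theorem asm_bit {f : ℕ → ℕ} {S : ℕ} (hf : ∀ k i, (f k).testBit i = true → i < S) (k n : ℕ) :
    ∀ ρ t, t < S → (asm f S k n).testBit (S * ρ + t) =
      (decide (ρ < n) && (f (k + (n - 1 - ρ))).testBit t) := by
  induction n with
  | zero => exact fun ρ t _ => Nat.zero_testBit _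
  | succ n ih =>
    intro ρ t ht
    change (asm f S k n <<< S ||| f (k + n)).testBit _ = _
    rw [Nat.testBit_or, Nat.testBit_shiftLeft]
    rcases ρ with _ | ρ
    · rw [mul_zero, zero_add, decide_eq_false (by omega), decide_eq_true n.succ_pos]
      rfl
    · have h1 : (f (k + n)).testBit (S * (ρ + 1) + t) = false := by
        rw [← Bool.not_eq_true]
        intro h
        have := hf _ _ h
        rw [Nat.mul_succ] at this
        omega
      rw [h1, Bool.or_false, decide_eq_true (by rw [Nat.mul_succ]; omega), Bool.true_and,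
        show S * (ρ + 1) + t - S = S * ρ + t by rw [Nat.mul_succ]; omega, ih ρ t ht,
        show n + 1 - 1 - (ρ + 1) = n - 1 - ρ by omega]
      simp

end Vale.Agent.P236JB

end
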