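import Vale.Agent.P236JB.Ck
import Vale.Agent.P236JL.Tb

/-!
# P236JB / Tab : the tables of bytes describe the lifted resolution
-/

noncomputable section

namespace Vale.Agent.P236JB

open MvPolynomial Vale.Agent.P236EL Vale.Agent.P236KE Vale.Agent.P236K3 Vale.Agent.P236JY
open Vale.Agent.P236KE.S90 Vale.Agent.P236JW Vale.Agent.P236JL

section
variable (p : CB) (D : DLL)

def k7 (Z : DLL) (m m' g e u G : Nat) : Bool := ckZ p D m g e u G (dN Z m' G)
def k6 (Z : DLL) (g e m m' u : Nat) : Bool :=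
  al ⟨k7 p D Z m m' g e u⟩ (Nat.div (Nat.sub p.T u) (nat_lit 16))
def k5 (Z : DLL) (g e u e4 e3 : Nat) : Bool :=
  force (Nat.add e3 (Nat.mul (nat_lit 7) e4)) fun m =>
    force (Nat.add e3 (Nat.mul (nat_lit 16) e4)) fun m' =>
      force (Nat.add u (Nat.mul (nat_lit 13) e3)) (k6 p D Z g e m m')
def k4 (Z : DLL) (g e u e4 : Nat) : Bool :=
  force (Nat.add u (Nat.mul (nat_lit 40) e4)) fun u' =>
    al ⟨k5 p D Z g e u' e4⟩ (Nat.div (Nat.sub p.T u') (nat_lit 13))
def k3 (Z : D3) (g e u k : Nat) : Bool :=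
  al ⟨k4 p D (D3.get Z k) g e u⟩ (Nat.div (Nat.sub p.T u) (nat_lit 40))
def k2 (Z : D3) (e u g : Nat) : Bool :=
  force (Nat.add u (Nat.mul (nat_lit 13) g)) fun u' =>
    force (Nat.add g (Nat.mul (nat_lit 16) e)) (k3 p D Z g e u')
def k1 (Z : D3) (dw e : Nat) : Bool :=
  force (Nat.add dw (Nat.mul (nat_lit 40) e)) fun u =>
    al ⟨k2 p D Z e u⟩ (Nat.div (Nat.sub p.T u) (nat_lit 13))
/-- the check of all arrays of one generator -/
def ckW (Z : D3) (dw : Nat) : Bool := al ⟨k1 p D Z dw⟩ (Nat.div (Nat.sub p.T dw) (nat_lit 40))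

theorem ckW_spec {Z : D3} {dw : ℕ} (h : ckW p D Z dw = true) {g e e3 e4 G : ℕ}
    (hw : dw + 40 * e + 13 * g + 40 * e4 + 13 * e3 + 16 * G ≤ p.T) :
    ckZ p D (e3 + 7 * e4) g e (dw + 40 * e + 13 * g + 40 * e4 + 13 * e3) G
      (dN (D3.get Z (g + 16 * e)) (e3 + 16 * e4) G) = true := by
  have h1 : k1 p D Z dw e = true := al_spec h (show e ≤ (p.T - dw) / 40 by omega)
  rw [k1, force_eq] at h1
  have h2 : k2 p D Z e (dw + 40 * e) g = true :=
    al_spec h1 (show g ≤ (p.T - (dw + 40 * e)) / 13 by omega)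
  rw [k2, force_eq, force_eq, k3] at h2
  have h3 : k4 p D (D3.get Z (g + 16 * e)) g e (dw + 40 * e + 13 * g) e4 = true :=
    al_spec h2 (show e4 ≤ (p.T - (dw + 40 * e + 13 * g)) / 40 by omega)
  rw [k4, force_eq] at h3
  have h4 : k5 p D (D3.get Z (g + 16 * e)) g e (dw + 40 * e + 13 * g + 40 * e4) e4 e3 = true :=
    al_spec h3 (show e3 ≤ (p.T - (dw + 40 * e + 13 * g + 40 * e4)) / 13 by omega)
  rw [k5, force_eq, force_eq, force_eq, k6] at h4
  have h5 : k7 p D (D3.get Z (g + 16 * e)) (e3 + 7 * e4) (e3 + 16 * e4) g e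
      (dw + 40 * e + 13 * g + 40 * e4 + 13 * e3) G = true :=
    al_spec h4 (show G ≤ (p.T - (dw + 40 * e + 13 * g + 40 * e4 + 13 * e3)) / 16 by omega)
  rwa [k7] at h5

end

/-- the columns of a group: number, three tables of bytes, first place, steps -/
structure CG : Type where
  n : Nat
  tb : Nat
  tc : Nat
  td : Nat
  p0 : Nat
  l : DL

/-- the columns in degree `q + 1` -/
def cb (c : CG) (du N : Nat) : CB :=
  ⟨c.n, byte c.tb, byte c.tc, byte c.td, nat_lit 90, du, N, c.p0, c.l⟩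
def cW3 (q : Nat) (c : CG) (up : D4) (w du N : Nat) : Bool :=
  and (a3 ⟨n3 (cb c du N)⟩ (D4.get up w))
    (force (byte (sph.d q) w) (ckW (cb c du N) (hD q w) (D4.get up w)))
def cW2 (q : Nat) (c : CG) (up : D4) (w du n : Nat) : Bool :=
  force (po (nat_lit 90) du n) (cW3 q c up w du)
def cW1 (q : Nat) (c : CG) (up : D4) (w du : Nat) : Bool :=
  force (sph.n (Nat.succ q)) (cW2 q c up w du)
/-- the check of the table for the generator `w` -/
def cW (q : Nat) (c : CG) (up : D4) (w : Nat) : Bool :=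
  force (sph.d (Nat.succ q)) (cW1 q c up w)
def cG3 (c : CG) (dc du n N i : Nat) : Bool :=
  and (Nat.blt (byte c.tb i) n) (Nat.beq (byte dc i) (dD (cb c du N) i))
def cG2 (c : CG) (dc du n N : Nat) : Bool := and (okC (cb c du N)) (alt ⟨cG3 c dc du n N⟩ c.n)
def cG1 (c : CG) (dc du n : Nat) : Bool := force (po (nat_lit 90) du n) (cG2 c dc du n)
/-- the check of the columns -/
def cG (q : Nat) (c : CG) (dc : Nat) : Bool :=
  force (sph.d (Nat.succ q)) fun du => force (sph.n (Nat.succ q)) (cG1 c dc du)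

/-- the column number `i` -/
def CG.col (c : CG) (dc i : ℕ) : Col := ⟨i, byte c.tc i, byte c.td i, byte dc i⟩

theorem cG_col {q dc : ℕ} {c : CG} (h : cG q c dc = true) {i : ℕ} (hi : i < c.n) :
    byte c.tb i < sph.n (q + 1) ∧
      byte dc i = byte (sph.d (q + 1)) (byte c.tb i) + 13 * byte c.tc i + 40 * byte c.td i := by
  rw [cG, force_eq, force_eq, cG1, force_eq, cG2, Bool.and_eq_true] at h
  have h1 : cG3 c dc _ _ _ i = true := alt_spec (t := ⟨cG3 c dc _ _ _⟩) h.2 hi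
  rw [cG3, Bool.and_eq_true, Nat.blt_eq, Nat.beq_eq] at h1
  exact h1

variable [Fact (Nat.Prime 3)]

/-- the meaning of the table of bytes -/
structure TabW (q : ℕ) (c : CG) (dc : ℕ) (up : D4) : Prop where
  le : ∀ (w : sph.G (q + 1)) (k m G a j : ℕ), a < 4 →
    P236JW.dg (dN (D3.get (D4.get up w) k) m G >>> (2 * a)) j &&& 3 ≤ 2
  val : ∀ (w : sph.G (q + 1)) (E : Q4) (g e W : ℕ), W ≤ 90 →
    W = byte (sph.d q) w + wt4 E + 13 * g + 40 * e → ∀ i < c.n, ∀ b : sph.G (q + 2),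
      b.1 = byte c.tb i → ((P236JW.dg (dN (D3.get (D4.get up w) (g + 16 * e))
        (E.2.2.1 + 16 * E.2.2.2) (E.2.1 / 4) >>> (2 * (E.2.1 % 4))) (c.n * (90 - W) + i) &&& 3 : ℕ) :
          ZMod 3) = (c.col dc i).ext (fun V => coeff (m4 V) (rJ.y q w b (m4 E))) g e W

/-- **The table of bytes.** -/
theorem tabW_of {q dc n : ℕ} {c : CG} {up : D4} (hc : cG q c dc = true) (h : Rg (cW q c up) 0 n)
    (hn : sph.n q = n) : TabW q c dc up := by
  have h0 := fun w : sph.G (q + 1) => h w (Nat.zero_le _) (hn ▸ w.2)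
  simp only [cW, force_eq, cW1, cW2, cW3, Bool.and_eq_true] at h0
  refine ⟨fun w k m G a j ha => n3_le (a3_spec (t := ⟨n3 _⟩) n3_zero (h0 w).1 k m G) ha j,
    fun w E g e W hW e0 i hi b hb => ?_⟩
  rw [wt4] at e0
  have h2 := ckW_spec _ _ (h0 w).2 (g := g) (e := e) (e3 := E.2.2.1) (e4 := E.2.2.2) (G := E.2.1 / 4)
    (by change _ ≤ 90; omega)
  have h3 : okC (cb c (sph.d (q + 1)) (po 90 (sph.d (q + 1)) (sph.n (q + 1)))) = true := by
    rw [cG, force_eq, force_eq, cG1, force_eq, cG2, Bool.and_eq_true] at hc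
    exact hc.1
  obtain ⟨-, h5⟩ := ckZ_spec h3 h2 (Nat.mod_lt E.2.1 (by decide : 0 < 4))
  have h6 := h5 i hi E.1 W hW (by omega)
  have h7 := (cG_col hc hi).2
  change P236JW.dg _ (c.n * (90 - W) + i) &&& 3 = if byte (sph.d (q + 1)) (byte c.tb i) +
    13 * byte c.tc i + 40 * byte c.td i ≤ W ∧ (W - (byte (sph.d (q + 1)) (byte c.tb i) +
    13 * byte c.tc i + 40 * byte c.td i)) % 4 ≠ 3 ∧ g ≤ byte c.tc i ∧ e ≤ byte c.td i then
    tr _ (po 90 (sph.d (q + 1)) (sph.n (q + 1)) * _ + (po 90 (sph.d (q + 1)) (byte c.tb i) +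
      (3 * (byte c.tc i - g) + (byte c.td i - e)))) else 0 at h6
  rw [h6, ← h7, Nat.div_add_mod, Nat.add_comm (4 * E.2.1)]
  split_ifs with h8
  · refine Eq.trans ?_ (if_pos h8).symm
    simp only [CG.col]
    rw [coeff_rJ q w b (by rw [wt4]; omega) (by simp only; omega)
      (by simp only [wt4, hb]; omega), hb]
  · exact Nat.cast_zero.trans (if_neg h8).symm

end Vale.Agent.P236JB

end
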